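import Vale.Agent.Lib.P346.Alt.Defs
import Vale.Agent.Lib.P346.FQ.Growth

/-! The two descriptions of `ΣΠΣΠΣ` circuits and of `IMM` agree. -/

namespace Vale.P346.Alt

open MvPolynomial Finset Filter Topology

/-! ### `IMM` -/

lemma imm_eq (R : Type) [CommRing R] {w : ℕ} (hw : 0 < w) (d : ℕ) :
    imm R w d = Vale.P346.IMM R w d := by
  unfold imm Vale.P346.IMM
  rw [dif_pos hw, prod_ofFn_apply, Finset.sum_filter]
  refine Finset.sum_congr rfl (fun i _ => ?_)
  by_cases h : (i 0 : ℕ) = 0 ∧ (i (Fin.last d) : ℕ) = 0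
  · rw [if_pos h, if_pos ⟨Fin.ext h.1, Fin.ext h.2⟩]
    rfl
  · rw [if_neg h, if_neg]
    rintro ⟨h1, h2⟩
    exact h ⟨by rw [h1], by rw [h2]⟩

/-! ### Lists -/

section lists

variable {R V : Type} [CommRing R] {n : ℕ}

/-- total coefficient of an input -/
def coefSum (L : List (R × Fin n)) (i : Fin n) : R :=
  (L.map fun e => if e.2 = i then e.1 else 0).sum

lemma sum_coefSum (f : Fin n → MvPolynomial V R) : ∀ (L : List (R × Fin n)) (S : Finset (Fin n)),
    (∀ e ∈ L, e.2 ∈ S) →
    ∑ i ∈ S, C (coefSum L i) * f i = (L.map fun e => C e.1 * f e.2).sum := by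
  intro L
  induction L with
  | nil =>
    intro S _
    simp [coefSum]
  | cons e L ih =>
    intro S hS
    have h1 : ∀ i, coefSum (e :: L) i = (if e.2 = i then e.1 else 0) + coefSum L i := by
      intro i
      unfold coefSum
      rw [List.map_cons, List.sum_cons]
    have he : e.2 ∈ S := hS e List.mem_cons_self
    rw [List.map_cons, List.sum_cons, ← ih S (fun e' he' => hS e' (List.mem_cons_of_mem _ he'))]
    simp_rw [h1, map_add, add_mul]
    rw [Finset.sum_add_distrib]
    congr 1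
    rw [Finset.sum_eq_single e.2]
    · rw [if_pos rfl]
    · intro b _ hb
      rw [if_neg (Ne.symm hb), map_zero, zero_mul]
    · intro h
      exact absurd he h

lemma prod_count {M : Type} [CommMonoid M] (f : Fin n → M) (L : List (Fin n)) :
    ∏ i, f i ^ L.count i = (L.map f).prod := by
  rw [Finset.prod_list_map_count]
  symm
  refine Finset.prod_subset (Finset.subset_univ _) (fun i _ hi => ?_)
  have : L.count i = 0 := List.count_eq_zero_of_not_mem (fun h => hi (List.mem_toFinset.mpr h))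
  rw [this, pow_zero]

lemma sum_count (f : Fin n → ℕ) (L : List (Fin n)) :
    ∑ i, L.count i * f i = (L.map f).sum := by
  rw [Finset.sum_list_map_count]
  symm
  refine Finset.sum_subset (Finset.subset_univ _) (fun i _ hi => ?_)
  have : L.count i = 0 := List.count_eq_zero_of_not_mem (fun h => hi (List.mem_toFinset.mpr h))
  rw [this, zero_smul]

lemma map_replicates {α β M : Type} [CommMonoid M] (e : α → β) (m : α → ℕ) (F : β → M) :
    ∀ T : List α, ((T.flatMap fun j => List.replicate (m j) (e j)).map F).prod =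
      (T.map fun j => F (e j) ^ m j).prod := by
  intro T
  induction T with
  | nil => simp
  | cons a T ih =>
    rw [List.flatMap_cons, List.map_append, List.prod_append, ih, List.map_replicate,
      List.prod_replicate, List.map_cons, List.prod_cons]

lemma map_replicates_sum {α β : Type} (e : α → β) (m : α → ℕ) (F : β → ℕ) :
    ∀ T : List α, ((T.flatMap fun j => List.replicate (m j) (e j)).map F).sum =
      (T.map fun j => m j * F (e j)).sum := by
  intro T
  induction T with
  | nil => simp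
  | cons a T ih =>
    rw [List.flatMap_cons, List.map_append, List.sum_append, ih, List.map_replicate,
      List.sum_replicate, List.map_cons, List.sum_cons, smul_eq_mul]

end lists

/-! ### From lists to finite sets -/

section toCircuit

variable {R V : Type} [CommRing R] (Γ : SPSPS R V)

/-- The circuit with finite sets of inputs. -/
noncomputable def toC : Circuit R V where
  G0 := Fin Γ.leaves
  G1 := Fin Γ.sums₁
  G2 := Fin Γ.prods₁
  G3 := Fin Γ.sums₂
  G4 := Fin Γ.prods₂
  leaf := Γ.leaf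
  in1 := fun g => ((Γ.sum₁ g).map Prod.snd).toFinset
  c1 := fun g => coefSum (Γ.sum₁ g)
  m2 := fun g j => (Γ.prod₁ g).count j
  in3 := fun g => ((Γ.sum₂ g).map Prod.snd).toFinset
  c3 := fun g => coefSum (Γ.sum₂ g)
  m4 := fun g j => (Γ.prod₂ g).count j
  in5 := (Γ.output.map Prod.snd).toFinset
  c5 := coefSum Γ.output

lemma toC_size : (toC Γ).size = Γ.size := by
  change Fintype.card (Fin Γ.leaves) + Fintype.card (Fin Γ.sums₁) + Fintype.card (Fin Γ.prods₁) +
    Fintype.card (Fin Γ.sums₂) + Fintype.card (Fin Γ.prods₂) + 1 = _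
  simp only [Fintype.card_fin]
  rfl

omit [CommRing R] in
lemma mem_snd {n : ℕ} {L : List (R × Fin n)} (e : R × Fin n) (he : e ∈ L) :
    e.2 ∈ (L.map Prod.snd).toFinset :=
  List.mem_toFinset.mpr (List.mem_map.mpr ⟨e, he, rfl⟩)

omit [CommRing R] in
lemma exists_of_mem {n : ℕ} {L : List (R × Fin n)} {i : Fin n}
    (hi : i ∈ (L.map Prod.snd).toFinset) : ∃ e ∈ L, e.2 = i := by
  simpa using hi

lemma toC_val1 (g : Fin Γ.sums₁) : (toC Γ).val1 g = Γ.poly₁ g :=
  sum_coefSum Γ.poly₀ (Γ.sum₁ g) _ (fun e he => mem_snd e he)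

lemma toC_val2 (g : Fin Γ.prods₁) : (toC Γ).val2 g = Γ.poly₂ g := by
  change ∏ i : Fin Γ.sums₁, (toC Γ).val1 i ^ (Γ.prod₁ g).count i = _
  rw [Finset.prod_congr rfl (fun i _ => by rw [toC_val1])]
  exact prod_count Γ.poly₁ (Γ.prod₁ g)

lemma toC_val3 (g : Fin Γ.sums₂) : (toC Γ).val3 g = Γ.poly₃ g := by
  change ∑ i ∈ ((Γ.sum₂ g).map Prod.snd).toFinset, C (coefSum (Γ.sum₂ g) i) * (toC Γ).val2 i = _
  rw [Finset.sum_congr rfl (fun i _ => by rw [toC_val2])]
  exact sum_coefSum Γ.poly₂ (Γ.sum₂ g) _ (fun e he => mem_snd e he)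

lemma toC_val4 (g : Fin Γ.prods₂) : (toC Γ).val4 g = Γ.poly₄ g := by
  change ∏ i : Fin Γ.sums₂, (toC Γ).val3 i ^ (Γ.prod₂ g).count i = _
  rw [Finset.prod_congr rfl (fun i _ => by rw [toC_val3])]
  exact prod_count Γ.poly₃ (Γ.prod₂ g)

lemma toC_out : (toC Γ).out = Γ.poly := by
  change ∑ i ∈ (Γ.output.map Prod.snd).toFinset, C (coefSum Γ.output i) * (toC Γ).val4 i = _
  rw [Finset.sum_congr rfl (fun i _ => by rw [toC_val4])]
  exact sum_coefSum Γ.poly₄ Γ.output _ (fun e he => mem_snd e he)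

lemma deg0_eq {d₀ : Fin Γ.leaves → ℕ} (hv : ∀ i v, Γ.leaf i = Sum.inl v → d₀ i = 1)
    (hc : ∀ i a, Γ.leaf i = Sum.inr a → d₀ i = 0) (i : Fin Γ.leaves) :
    (toC Γ).deg0 i = d₀ i := by
  change Sum.elim (fun _ => 1) (fun _ => 0) (Γ.leaf i) = d₀ i
  rcases h : Γ.leaf i with v | a
  · exact (hv i v h).symm
  · exact (hc i a h).symm

lemma toC_homogeneous (h : Γ.Homogeneous) : (toC Γ).Homogeneous := by
  obtain ⟨d₀, d₁, d₂, d₃, d₄, d₅, hv, hc, h1, h2, h3, h4, h5⟩ := h
  refine ⟨d₁, d₃, d₅, ?_, ?_, ?_⟩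
  · intro g i hi
    obtain ⟨e, he, hei⟩ := exists_of_mem hi
    exact ((deg0_eq Γ hv hc i).trans (congrArg d₀ hei.symm)).trans (h1 g e he)
  · intro g i hi
    obtain ⟨e, he, hei⟩ := exists_of_mem hi
    exact ((sum_count d₁ (Γ.prod₁ i)).trans (h2 i).symm).trans
      ((congrArg d₂ hei.symm).trans (h3 g e he))
  · intro i hi
    obtain ⟨e, he, hei⟩ := exists_of_mem hi
    exact ((sum_count d₃ (Γ.prod₂ i)).trans (h4 i).symm).trans
      ((congrArg d₄ hei.symm).trans (h5 e he))

end toCircuit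

/-! ### From finite sets to lists -/

section ofCircuit

variable {R V : Type} [CommRing R] (D : Circuit R V)

/-- The circuit with lists of inputs. -/
noncomputable def ofC : SPSPS R V where
  leaves := Fintype.card D.G0
  sums₁ := Fintype.card D.G1
  prods₁ := Fintype.card D.G2
  sums₂ := Fintype.card D.G3
  prods₂ := Fintype.card D.G4
  leaf := fun i => D.leaf ((Fintype.equivFin D.G0).symm i)
  sum₁ := fun g => (D.in1 ((Fintype.equivFin D.G1).symm g)).toList.map fun i =>
    (D.c1 ((Fintype.equivFin D.G1).symm g) i, Fintype.equivFin D.G0 i)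
  prod₁ := fun g => (univ : Finset D.G1).toList.flatMap fun j =>
    List.replicate (D.m2 ((Fintype.equivFin D.G2).symm g) j) (Fintype.equivFin D.G1 j)
  sum₂ := fun g => (D.in3 ((Fintype.equivFin D.G3).symm g)).toList.map fun i =>
    (D.c3 ((Fintype.equivFin D.G3).symm g) i, Fintype.equivFin D.G2 i)
  prod₂ := fun g => (univ : Finset D.G3).toList.flatMap fun j =>
    List.replicate (D.m4 ((Fintype.equivFin D.G4).symm g) j) (Fintype.equivFin D.G3 j)
  output := D.in5.toList.map fun i => (D.c5 i, Fintype.equivFin D.G4 i)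

omit [CommRing R] in
lemma ofC_size : (ofC D).size = D.size := rfl

lemma sum_map_toList' {α β : Type} (T : Finset α) (c : α → R) (e : α → β)
    (F : β → MvPolynomial V R) :
    ((T.toList.map fun i => (c i, e i)).map fun t => C t.1 * F t.2).sum =
      ∑ i ∈ T, C (c i) * F (e i) := by
  rw [List.map_map]
  exact Finset.sum_map_toList T _

lemma ofC_poly₀ (i : D.G0) : (ofC D).poly₀ (Fintype.equivFin D.G0 i) = D.val0 i := by
  change Sum.elim (fun v => X v) (fun a => C a)
    (D.leaf ((Fintype.equivFin D.G0).symm (Fintype.equivFin D.G0 i))) = _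
  rw [Equiv.symm_apply_apply]
  rfl

lemma ofC_poly₁ (g : D.G1) : (ofC D).poly₁ (Fintype.equivFin D.G1 g) = D.val1 g := by
  refine (sum_map_toList' _ _ _ _).trans ?_
  rw [Equiv.symm_apply_apply]
  exact Finset.sum_congr rfl (fun i _ => by rw [ofC_poly₀])

lemma ofC_poly₂ (g : D.G2) : (ofC D).poly₂ (Fintype.equivFin D.G2 g) = D.val2 g := by
  refine (map_replicates _ _ _ _).trans ?_
  rw [Equiv.symm_apply_apply]
  refine (Finset.prod_map_toList _ _).trans ?_
  exact Finset.prod_congr rfl (fun i _ => by rw [ofC_poly₁])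

lemma ofC_poly₃ (g : D.G3) : (ofC D).poly₃ (Fintype.equivFin D.G3 g) = D.val3 g := by
  refine (sum_map_toList' _ _ _ _).trans ?_
  rw [Equiv.symm_apply_apply]
  exact Finset.sum_congr rfl (fun i _ => by rw [ofC_poly₂])

lemma ofC_poly₄ (g : D.G4) : (ofC D).poly₄ (Fintype.equivFin D.G4 g) = D.val4 g := by
  refine (map_replicates _ _ _ _).trans ?_
  rw [Equiv.symm_apply_apply]
  refine (Finset.prod_map_toList _ _).trans ?_
  exact Finset.prod_congr rfl (fun i _ => by rw [ofC_poly₃])

lemma ofC_poly : (ofC D).poly = D.out := by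
  refine (sum_map_toList' _ _ _ _).trans ?_
  exact Finset.sum_congr rfl (fun i _ => by rw [ofC_poly₄])

omit [CommRing R] in
lemma ofC_homogeneous (h : D.Homogeneous) : (ofC D).Homogeneous := by
  obtain ⟨d₁, d₃, d₅, h1, h3, h5⟩ := h
  refine ⟨fun i => D.deg0 ((Fintype.equivFin D.G0).symm i),
    fun i => d₁ ((Fintype.equivFin D.G1).symm i),
    fun i => ∑ j, D.m2 ((Fintype.equivFin D.G2).symm i) j * d₁ j,
    fun i => d₃ ((Fintype.equivFin D.G3).symm i),
    fun i => ∑ j, D.m4 ((Fintype.equivFin D.G4).symm i) j * d₃ j, d₅, ?_, ?_, ?_, ?_, ?_, ?_, ?_⟩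
  · intro i v hi
    change Sum.elim (fun _ => 1) (fun _ => 0) (D.leaf ((Fintype.equivFin D.G0).symm i)) = 1
    change D.leaf ((Fintype.equivFin D.G0).symm i) = Sum.inl v at hi
    rw [hi]
    rfl
  · intro i a hi
    change Sum.elim (fun _ => 1) (fun _ => 0) (D.leaf ((Fintype.equivFin D.G0).symm i)) = 0
    change D.leaf ((Fintype.equivFin D.G0).symm i) = Sum.inr a at hi
    rw [hi]
    rfl
  · intro g e he
    obtain ⟨i, hi, rfl⟩ := List.mem_map.mp he
    change D.deg0 ((Fintype.equivFin D.G0).symm (Fintype.equivFin D.G0 i)) = _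
    rw [Equiv.symm_apply_apply]
    exact h1 _ i (Finset.mem_toList.mp hi)
  · intro g
    refine ((map_replicates_sum _ _ _ _).trans ?_).symm
    refine (Finset.sum_map_toList _ _).trans ?_
    exact Finset.sum_congr rfl (fun j _ => by rw [Equiv.symm_apply_apply])
  · intro g e he
    obtain ⟨i, hi, rfl⟩ := List.mem_map.mp he
    change ∑ j, D.m2 ((Fintype.equivFin D.G2).symm (Fintype.equivFin D.G2 i)) j * d₁ j = _
    rw [Equiv.symm_apply_apply]
    exact h3 _ i (Finset.mem_toList.mp hi)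
  · intro g
    refine ((map_replicates_sum _ _ _ _).trans ?_).symm
    refine (Finset.sum_map_toList _ _).trans ?_
    exact Finset.sum_congr rfl (fun j _ => by rw [Equiv.symm_apply_apply])
  · intro e he
    obtain ⟨i, hi, rfl⟩ := List.mem_map.mp he
    change ∑ j, D.m4 ((Fintype.equivFin D.G4).symm (Fintype.equivFin D.G4 i)) j * d₃ j = _
    rw [Equiv.symm_apply_apply]
    exact h5 i (Finset.mem_toList.mp hi)

end ofCircuit

/-! ### The minimum sizes -/

theorem minSize_eq (R : Type) [CommRing R] {n : ℕ} (hn : 0 < n) :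
    minSize R n = Vale.P346.s R n := by
  unfold minSize Vale.P346.s
  congr 1
  ext m
  constructor
  · rintro ⟨Γ, h1, h2, h3⟩
    exact ⟨toC Γ, toC_homogeneous Γ h1, (toC_out Γ).trans (h2.trans (imm_eq R hn n)),
      (toC_size Γ).trans h3⟩
  · rintro ⟨D, h1, h2, h3⟩
    exact ⟨ofC D, ofC_homogeneous D h1, (ofC_poly D).trans (h2.trans (imm_eq R hn n).symm), h3⟩

/-- from the limit of `log log s / log n` to powers of `n` -/
theorem powers_of_tendsto {f : ℕ → ℝ} (hf : ∀ᶠ n in atTop, 1 < f n)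
    (h : Tendsto (fun n : ℕ => Real.log (Real.log (f n)) / Real.log n) atTop (𝓝 (1 / 2)))
    {ε : ℝ} (hε : 0 < ε) : ∃ n₀ : ℕ, ∀ n ≥ n₀,
      (n : ℝ) ^ (1 / 2 - ε) ≤ Real.log (f n) ∧ Real.log (f n) ≤ (n : ℝ) ^ (1 / 2 + ε) := by
  have h1 : ∀ᶠ n : ℕ in atTop, (n : ℝ) ^ (1 / 2 - ε) ≤ Real.log (f n) ∧
      Real.log (f n) ≤ (n : ℝ) ^ (1 / 2 + ε) := by
    have h2 := h.eventually (Ioo_mem_nhds (by linarith : (1 / 2 : ℝ) - ε < 1 / 2)
      (by linarith : (1 / 2 : ℝ) < 1 / 2 + ε))
    filter_upwards [h2, hf, eventually_ge_atTop 2] with n hn hfn hn2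
    have hn2' : (2 : ℝ) ≤ n := by exact_mod_cast hn2
    have hlogn : 0 < Real.log n := Real.log_pos (by linarith)
    have hl : 0 < Real.log (f n) := Real.log_pos hfn
    have h3 := (lt_div_iff₀ hlogn).mp hn.1
    have h4 := (div_lt_iff₀ hlogn).mp hn.2
    rw [Real.rpow_def_of_pos (by linarith), Real.rpow_def_of_pos (by linarith)]
    constructor
    · rw [← Real.le_log_iff_exp_le hl]
      linarith
    · rw [← Real.log_le_iff_le_exp hl]
      linarith
  exact eventually_atTop.mp h1

end Vale.P346.Alt
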