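import Mathlib

/-! Iterated matrix multiplication and homogeneous `ΣΠΣΠΣ` circuits given by lists of inputs. -/

namespace Vale.P346.Alt

open MvPolynomial

/-- The `t`-th of `d` generic `w × w` matrices: its entries are the distinct variables
`x^{(t)}_{i,j}`. -/
noncomputable def genMatrix (K : Type) [CommRing K] (w d : ℕ) (t : Fin d) :
    Matrix (Fin w) (Fin w) (MvPolynomial (Fin d × Fin w × Fin w) K) :=
  Matrix.of fun i j => X (t, i, j)

/-- `IMM_{w,d}`: the top left entry of the product `X^{(1)} ⋯ X^{(d)}` of the generic matrices. -/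
noncomputable def imm (K : Type) [CommRing K] (w d : ℕ) :
    MvPolynomial (Fin d × Fin w × Fin w) K :=
  if h : 0 < w then (List.ofFn (genMatrix K w d)).prod ⟨0, h⟩ ⟨0, h⟩ else 0

/-- A `ΣΠΣΠΣ` circuit with variables `V` and constants in `K`.  From the bottom: leaves, sum gates,
product gates, sum gates, product gates, one output sum gate.  The vertices of each layer are
numbered, a sum gate is the list of its inputs together with their coefficients, a product gate is
the list of its inputs (repetitions allowed), all inputs being in the previous layer. -/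
structure SPSPS (K V : Type) where
  /-- number of leaves -/
  leaves : ℕ
  /-- number of bottom sum gates -/
  sums₁ : ℕ
  /-- number of bottom product gates -/
  prods₁ : ℕ
  /-- number of middle sum gates -/
  sums₂ : ℕ
  /-- number of top product gates -/
  prods₂ : ℕ
  leaf : Fin leaves → V ⊕ K
  sum₁ : Fin sums₁ → List (K × Fin leaves)
  prod₁ : Fin prods₁ → List (Fin sums₁)
  sum₂ : Fin sums₂ → List (K × Fin prods₁)
  prod₂ : Fin prods₂ → List (Fin sums₂)
  output : List (K × Fin prods₂)

namespace SPSPS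

variable {K V : Type} (Γ : SPSPS K V)

/-- The number of vertices. -/
def size : ℕ := Γ.leaves + Γ.sums₁ + Γ.prods₁ + Γ.sums₂ + Γ.prods₂ + 1

/-- Syntactic homogeneity: there are formal degrees of all vertices such that variables have
degree `1`, constants `0`, product gates add the degrees of their inputs (with multiplicity), and
all inputs of a sum gate have the degree of that gate. -/
def Homogeneous : Prop :=
  ∃ (d₀ : Fin Γ.leaves → ℕ) (d₁ : Fin Γ.sums₁ → ℕ) (d₂ : Fin Γ.prods₁ → ℕ)
    (d₃ : Fin Γ.sums₂ → ℕ) (d₄ : Fin Γ.prods₂ → ℕ) (d₅ : ℕ),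
    (∀ i v, Γ.leaf i = Sum.inl v → d₀ i = 1) ∧
    (∀ i a, Γ.leaf i = Sum.inr a → d₀ i = 0) ∧
    (∀ g, ∀ e ∈ Γ.sum₁ g, d₀ e.2 = d₁ g) ∧
    (∀ g, d₂ g = ((Γ.prod₁ g).map d₁).sum) ∧
    (∀ g, ∀ e ∈ Γ.sum₂ g, d₂ e.2 = d₃ g) ∧
    (∀ g, d₄ g = ((Γ.prod₂ g).map d₃).sum) ∧
    (∀ e ∈ Γ.output, d₄ e.2 = d₅)

variable [CommRing K]

/-- The polynomial of a leaf. -/
noncomputable def poly₀ (i : Fin Γ.leaves) : MvPolynomial V K :=
  Sum.elim (fun v => X v) (fun a => C a) (Γ.leaf i)

/-- The polynomial of a bottom sum gate. -/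
noncomputable def poly₁ (g : Fin Γ.sums₁) : MvPolynomial V K :=
  ((Γ.sum₁ g).map fun e => C e.1 * Γ.poly₀ e.2).sum

/-- The polynomial of a bottom product gate. -/
noncomputable def poly₂ (g : Fin Γ.prods₁) : MvPolynomial V K := ((Γ.prod₁ g).map Γ.poly₁).prod

/-- The polynomial of a middle sum gate. -/
noncomputable def poly₃ (g : Fin Γ.sums₂) : MvPolynomial V K :=
  ((Γ.sum₂ g).map fun e => C e.1 * Γ.poly₂ e.2).sum

/-- The polynomial of a top product gate. -/
noncomputable def poly₄ (g : Fin Γ.prods₂) : MvPolynomial V K := ((Γ.prod₂ g).map Γ.poly₃).prod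

/-- The polynomial computed by the circuit. -/
noncomputable def poly : MvPolynomial V K := (Γ.output.map fun e => C e.1 * Γ.poly₄ e.2).sum

end SPSPS

/-- `s_K(n)`: the least size of a syntactically homogeneous `ΣΠΣΠΣ` circuit over `K` computing
`IMM_{n,n}`. -/
noncomputable def minSize (K : Type) [CommRing K] (n : ℕ) : ℕ :=
  sInf {m | ∃ Γ : SPSPS K (Fin n × Fin n × Fin n),
    Γ.Homogeneous ∧ Γ.poly = imm K n n ∧ Γ.size = m}

end Vale.P346.Alt
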